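import Vale.Agent.P184K32.Main

namespace Vale.Agent.Results.P184.AAKZero

open Vale.Agent.P184K32

universe u

/-- The `ℓ¹`-Bass conjecture for all discrete groups: idempotent matrices over the Banach algebra
`ℓ¹(G)`, and the Hattori-Stallings trace `HS¹ : K_0(ℓ¹(G)) → ℓ¹(C(G))`. -/
theorem result (G : Type u) [Group G] :
    (∃ (A : Type u) (_ : NormedRing A) (_ : NormedAlgebra ℂ A) (_ : CompleteSpace A)
      (c : A →ₗ[ℂ] G → ℂ), IsL1 c) ∧
    ∀ (A : Type u) [NormedRing A] [NormedAlgebra ℂ A] (c : A →ₗ[ℂ] G → ℂ), IsL1 c →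
      (∀ (q : ℕ) (e : Matrix (Fin q) (Fin q) A), IsIdempotentElem e →
        InFin (tau c e) ∧ ∃ P : Proj A, IsImage P e) ∧
      (∀ P : Proj A, ∃ (q : ℕ) (e : Matrix (Fin q) (Fin q) A),
        IsIdempotentElem e ∧ IsImage P e) ∧
      (∃! HS, IsHS c HS) ∧ ∀ HS, IsHS c HS → ∀ x, InFin (HS x) :=
  ⟨exists_l1 G, fun _ _ _ _ h => ⟨fun _ _ he => ⟨h.bass he, exists_proj he⟩, exists_idem,
    h.existsUnique, fun HS hH => h.inFin HS hH.2⟩⟩

end Vale.Agent.Results.P184.AAKZero
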